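import Crest.Agent.X212.Bor5.Ex
import Crest.Agent.X212.Rfl19.Th
import Crest.Agent.X212.Rw22.Tri

/-!
# Row 212, layer S (helper22): the blow-up law and the exact triangle on the words of a scene
-/

set_option autoImplicit false

open Set Filter Topology Function
open scoped ContDiff Manifold
open Crest.Agent.X212.Bor5.T Crest.Agent.X212.Lab56 Crest.Agent.X212.Rfl19
open Crest.Agent.X212.Rod53 (Z2 Loc Uni PM wd Jv TE)
open Crest.Agent.X212.Line51 (wm)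
open Crest.Agent.X212.Rw22 (Tr)

noncomputable section

namespace Crest.Agent.X212.Bu22

section words

variable {α : Type} {a b c : Z2} {t : ℝ}

theorem w1_floor (x y : α) (t : ℝ) : w1 x y ⌊t⌋ = if t < 0 then x else y := by
  simp only [w1, Int.floor_lt, Int.cast_zero]

theorem w2_floor (x y z : α) (t : ℝ) :
    w2 x y z ⌊t⌋ = if t < 0 then x else if t < 1 then y else z := by
  simp only [w2, Int.floor_lt, Int.cast_zero, Int.floor_eq_zero_iff, mem_Ico]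
  by_cases h : t < 0
  · simp only [if_pos h]
  · simp only [if_neg h, not_lt.1 h, true_and]

theorem vtx1 (h : Uni a b) : (t = ⌊t⌋ ∧ ¬PM (w1 a b (⌊t⌋ - 1)) (w1 a b ⌊t⌋)) ↔ t = 0 := by
  refine ⟨fun ⟨e, k⟩ => by_contra fun n => k ?_, fun e => by simpa [e, w1] using h.not_pm⟩
  have : ⌊t⌋ ≠ 0 := fun z => n (by rw [e, z, Int.cast_zero])
  unfold w1
  split_ifs <;> first | exact .refl _ | omega

theorem vtx2 (h : Uni a b) (k : Uni b c) :
    (t = ⌊t⌋ ∧ ¬PM (w2 a b c (⌊t⌋ - 1)) (w2 a b c ⌊t⌋)) ↔ t = 0 ∨ t = 1 := by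
  refine ⟨fun ⟨e, j⟩ => by_contra fun n => j ?_, ?_⟩
  · have h0 : ⌊t⌋ ≠ 0 := fun z => n (.inl (by rw [e, z, Int.cast_zero]))
    have h1 : ⌊t⌋ ≠ 1 := fun z => n (.inr (by rw [e, z, Int.cast_one]))
    unfold w2
    split_ifs <;> first | exact .refl _ | omega
  · rintro (rfl | rfl)
    · simpa [w2] using h.not_pm
    · simpa [w2] using k.not_pm

theorem wd1 (h : Uni a b) (t : ℝ) :
    wd (w1 a b) t = if t = 0 then 0 else if t < 0 then a else b := by
  rw [wd, ← w1_floor]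
  simp only [vtx1 h]

theorem wm1 (h : Uni a b) (x y : ℤ) (t : ℝ) :
    wm (w1 a b) (w1 x y) t = if t = 0 then 0 else if t < 0 then x else y := by
  rw [wm, ← w1_floor]
  simp only [vtx1 h]

theorem wd2 (h : Uni a b) (k : Uni b c) (t : ℝ) : wd (w2 a b c) t =
    if t = 0 ∨ t = 1 then 0 else if t < 0 then a else if t < 1 then b else c := by
  rw [wd, ← w2_floor]
  simp only [vtx2 h k]

theorem wm2 (h : Uni a b) (k : Uni b c) (x y z : ℤ) (t : ℝ) : wm (w2 a b c) (w2 x y z) t =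
    if t = 0 ∨ t = 1 then 0 else if t < 0 then x else if t < 1 then y else z := by
  rw [wm, ← w2_floor]
  simp only [vtx2 h k]

theorem v1_wd (h : Uni a b) : V1 (wd (w1 a b)) a b 0 := fun t => by
  refine interior_maximal (t := univ) (fun s _ => ?_) isOpen_univ (mem_univ t)
  exact ⟨fun k => .inl (by rw [wd1 h, if_neg k.ne, if_pos k]),
    fun k => by rw [wd1 h, if_pos k], fun k => .inl (by rw [wd1 h, if_neg k.ne', if_neg k.not_gt])⟩

theorem v2_wd (h : Uni a b) (k : Uni b c) : V2 (wd (w2 a b c)) a b c 0 1 := by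
  refine ⟨one_pos, fun t ht => interior_maximal (t := Iio 1) (fun s hs => ?_) isOpen_Iio ht,
    fun t ht => interior_maximal (t := Ioi 0) (fun s hs => ?_) isOpen_Ioi ht⟩
  · have hs : s < 1 := hs
    exact ⟨fun j => .inl (by rw [wd2 h k, if_neg (not_or.2 ⟨j.ne, hs.ne⟩), if_pos j]),
      fun j => by rw [wd2 h k, if_pos (.inl j)], fun j => .inl (by
        rw [wd2 h k, if_neg (not_or.2 ⟨j.ne', hs.ne⟩), if_neg j.not_gt, if_pos hs])⟩
  · have hs : 0 < s := hs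
    exact ⟨fun j => .inl (by
        rw [wd2 h k, if_neg (not_or.2 ⟨hs.ne', j.ne⟩), if_neg hs.not_gt, if_pos j]),
      fun j => by rw [wd2 h k, if_pos (.inr j)], fun j => .inl (by
        rw [wd2 h k, if_neg (not_or.2 ⟨hs.ne', j.ne'⟩), if_neg hs.not_gt, if_neg j.not_gt])⟩

theorem wd_out (h : Uni a b) (k : Uni b c) (l : Uni a c) (ht : t ∉ Icc (0 : ℝ) 1) :
    wd (w1 a c) t = wd (w2 a b c) t := by
  rw [wd1 l, wd2 h k]
  rcases not_and_or.1 ht with j | j <;> rw [not_le] at j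
  · rw [if_neg j.ne, if_pos j, if_neg (not_or.2 ⟨j.ne, (j.trans one_pos).ne⟩), if_pos j]
  · have := one_pos.trans j
    rw [if_neg this.ne', if_neg this.not_gt, if_neg (not_or.2 ⟨this.ne', j.ne'⟩),
      if_neg this.not_gt, if_neg j.not_gt]

theorem wm_out (h : Uni a b) (k : Uni b c) (l : Uni a c) (x y z : ℤ)
    (e : wd (w1 a c) t = wd (w2 a b c) t) : wm (w1 a c) (w1 x z) t = wm (w2 a b c) (w2 x y z) t := by
  rw [wd1 l, wd2 h k] at e
  rw [wm1 l, wm2 h k]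
  have h1 : c ≠ b := fun e => k.not_pm (.inl e.symm)
  have h2 : c ≠ 0 := (PM.refl c).ne_zero k.symm
  by_cases j : t = 0
  · simp [j]
  · simp only [j, if_false, false_or] at e ⊢
    split_ifs at e ⊢ <;> first | rfl | contradiction | linarith

end words

variable {τ : Tub}

/-- a realisation with literal ends is a realisation -/
def rz {A B : Q3} {a b : Z2} {C : Cob A B} {v : ℝ → Z2} {hv : Loc v} {f : Fo τ A.toO3 a}
    {g : Fo τ B.toO3 b} {x y : ℝ} (r : Rt C hv f g x y) : Rz C hv f g where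
  φ := r.K.toDiffeo
  pos := r.pos
  ki := ag_of_eq ((eventually_lt_atBot x).mono fun t ht p => r.ki (p, t) ht)
  ko := ag_of_eq ((eventually_gt_atTop y).mono fun t ht p => r.ko (p, t) ht)

theorem t3 (h : τ.σ = -1) {a b c : Z2} {σ ρ : ℤ} (T : Tr a b c σ ρ) : T3 τ a b c :=
  ⟨σ • a, ρ • c, (pm_sg T.1 a).symm, (pm_sg T.2.1 c).symm, T.2.2.1, by rw [h]; exact T.2.2.2⟩

/-- classes whose orders agree where the words agree correspond -/
theorem pb_chg {n N : ℕ} {R : Ref τ.T (Fin n) (Fin N)} {v v' : ℝ → Z2} (hv' : Loc v') {m m' : ℝ → ℤ}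
    {d : Cls (𝓡 4) (univ : Set (τ.X v))} {d' : Cls (𝓡 4) (univ : Set (τ.X v'))} (h : Lc R d m)
    (h' : Lc R d' m') (e : ∀ t, v' t = v t → m' t = m t) :
    Pb (τ.T.chgPD v' v) (τ.T.ag v' v) d d' := by
  have := sig (τ := τ) hv'
  obtain ⟨D, rfl, h⟩ := h
  obtain ⟨D', rfl, h'⟩ := h'
  have l := fun y (hy : y ∈ τ.T.ag v' v) => (TE.refl τ.T).ld_fn hy
  exact ⟨l, Quot.sound ((((h.chg isOpen_univ D.ok).mono fun _ hy => ⟨hy, trivial⟩).congr_m
    fun y hy o => Eventually.mono (mem_interior_iff_mem_nhds.1 (hy.resolve_left o)) e).eqv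
    τ.T.isOpen_ag (R.rfx _) (D.ok.pull l (mapsTo_univ _ _)) (D'.ok.mono (subset_univ _))
    (h'.mono (subset_univ _)))⟩

theorem bu : BuStmt := fun _ θ _ _ _ _ X _ _ _ hσ _ _ _ h k l _ _ d d' _ _ _ T ⟨_, p, q⟩ ⟨d₀, p', q'⟩ =>
  θ.bu _ _ _ _ _ _ (rz (X.r2 h k)) (rz (X.r1 l)) d d' d₀ (t3 hσ T) (v2_wd h.2.2 k.2.2)
    (v1_wd l.2.2) (left_mem_Icc.2 zero_le_one) (fun _ => wd_out h.2.2 k.2.2 l.2.2) p'
    (pb_comp p (pb_chg (X.h1 l).loc q q' fun _ => wm_out h.2.2 k.2.2 l.2.2 _ _ _) (mapsTo_univ _ _))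

theorem hnd {S : Scene} {I : Type} {V : Set I} {v : I → Z2} (X : Ex S τ V v) {a b : I}
    (h : Eg V v a b) : Hnd (S.cob (X.c1 h)) (X.f a h.1) (X.f b h.2.1) :=
  ⟨_, 0, _, v1_wd h.2.2, ⟨rz (X.r1 h)⟩⟩

theorem ex : ExStmt := fun _ θ _ _ _ _ X hσ _ _ _ h k _ _ T =>
  θ.triad _ _ _ _ _ _ (t3 hσ T) (hnd X h) (hnd X k) (hnd X ⟨k.2.1, h.1, T.rot.rot.uni⟩)

end Crest.Agent.X212.Bu22
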